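import Vale.Agent.P029W78.Main

/-!
# P029: the Deligne-Drinfeld conjecture, with the isomorphism of the weight completions
-/

namespace Vale.Agent.Results.P029.ACompletion

open Vale.Agent.P029.Stmt Vale.Agent.P029W78

theorem result :
    (∀ ψ : L, ∃! E : L → L, IsD ψ E) ∧
    (Function.Injective W.incl ∧ (∀ ψ : L, IsW ψ ↔ ∃ a : W, W.incl a = ψ) ∧
      ∀ a b : W, W.incl ⁅a, b⁆ = ihara (W.incl a) (W.incl b)) ∧
    (DirectSum.IsInternal Wn ∧ DirectSum.IsInternal Fpart) ∧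
    (∃ σ : ℕ → W, (∀ k, σ k ∈ Wn (2 * k + 3)) ∧
      Function.Bijective (FreeLieAlgebra.lift ℚ σ) ∧
      (∀ n, (Fpart n).map (FreeLieAlgebra.lift ℚ σ : F →ₗ[ℚ] W) = Wn n) ∧
      ∃ Φ : Hat Fpart ≃ₗ⁅ℚ⁆ Grt, ∀ a n,
        Hat.part Wn (Φ a) n = FreeLieAlgebra.lift ℚ σ (Hat.part Fpart a n)) ∧
    ∀ n, FiniteDimensional ℚ (Wn n) ∧ FiniteDimensional ℚ (Fpart n) ∧
      Module.finrank ℚ (Wn n) = Module.finrank ℚ (Fpart n) :=
  Vale.Agent.P029W78.main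

end Vale.Agent.Results.P029.ACompletion
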